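import Vale.Agent.P032.S5.H767.Pts
import Vale.Agent.P032.S5.H80.Ray
import Vale.Agent.P032.S5.H287.HMTop

/-!
# P032: special ends with three colours of the centre are mutual

Frame `Irr U T` only.  `z` a two-pair point (pairs `ab | cd`), `v` in the closure of the exact
`ab`-arcs of `z`, `|T v| = 4`.

* `not_run` : no colour of `z` is carried by `S(v)` on both sides of `z`;
* `mutual_c` : if `c ∈ T v` then `z` is in the closure of the exact `ac`-arcs or of the exact
  `bc`-arcs of `v`;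
* `k3_mutual` : if `v` does not carry both missing colours of `z` then, after renaming inside the
  pairs, `z` is in the closure of the exact `ac`-arcs of `v`;
* `no_hm_same` : if `T v = T z` then `v` has two different exact pairs.
-/

open Set Filter Topology Metric

noncomputable section

namespace Vale.Agent.P032.H821

open Vale.Agent.P032.Six Vale.Agent.P032.S5.H767

variable {U : Fin 6 → Set ℂ} {T : ℂ → Set (Fin 6)} {z v : ℂ} {a b c d t : Fin 6}

/-- no colour of a two-pair point `z` is carried by the circle of `v` near `z` -/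
theorem not_run (h : Irr U T) (hz : DPt T z a b c d) (hvz : dist v z = 1) (ht : t ∈ T z) :
    ¬ ∀ᶠ q in 𝓝[sphere v 1] z, t ∈ T q := by
  intro hJ
  obtain ⟨p, hp1, hp2, hp3, htp⟩ : ∃ p, dist z p = 1 ∧ p ≠ v ∧ p + v ≠ 2 * z ∧ t ∈ T p := by
    obtain ⟨p1, hp1⟩ := hz.arc1
    obtain ⟨p2, hp2⟩ := hz.arc2
    obtain ⟨q1, hq1, n1, m1⟩ := hp1.exists_off_line (y := v)
    obtain ⟨q2, hq2, n2, m2⟩ := hp2.exists_off_line (y := v)
    rw [hz.pal] at ht
    rcases ht with h1 | h1 | h1 | h1
    · exact ⟨q1, by rw [dist_comm]; exact hq1.1, n1, m1, by rw [hq1.mem, h1]; simp⟩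
    · exact ⟨q1, by rw [dist_comm]; exact hq1.1, n1, m1, by rw [hq1.mem, h1]; simp⟩
    · exact ⟨q2, by rw [dist_comm]; exact hq2.1, n2, m2, by rw [hq2.mem, h1]; simp⟩
    · exact ⟨q2, by rw [dist_comm]; exact hq2.1, n2, m2, by
        rw [hq2.mem, mem_singleton_iff.1 h1]; simp⟩
  exact line_free h (z := v) (y := z) (v := p) (by rw [dist_comm]; exact hvz) hJ hp1 hp2 hp3
    (h.sub p htp)

/-- palettes inside `S ⊆ T v` arbitrarily near `z` on the circle of `v`: an exact pair inside `S`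
accumulates at `z` -/
theorem pair_acc (h : Irr U T) (hv4 : (T v).ncard = 4) {S : Set (Fin 6)} (hS : S ⊆ T v)
    (hf : ∃ᶠ y in 𝓝[sphere v 1] z, T y ⊆ S) :
    ∃ P ⊆ S, P.ncard = 2 ∧ z ∈ closure (Ex T v P) := by
  by_contra hcon
  push Not at hcon
  have ev : ∀ᶠ q in 𝓝 z, ∀ P : Set (Fin 6), P ⊆ S → P.ncard = 2 → q ∉ Ex T v P := by
    rw [eventually_all]
    intro P
    by_cases h1 : P ⊆ S ∧ P.ncard = 2
    · filter_upwards [isClosed_closure.isOpen_compl.mem_nhds (hcon P h1.1 h1.2)] with q hq _ _ h2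
      exact hq (subset_closure h2)
    · exact Eventually.of_forall fun q h2 h3 => absurd ⟨h2, h3⟩ h1
  have ev2 : ∀ᶠ y in 𝓝[sphere v 1] z,
      ∀ᶠ q in 𝓝 y, ∀ P : Set (Fin 6), P ⊆ S → P.ncard = 2 → q ∉ Ex T v P :=
    mem_nhdsWithin_of_mem_nhds (eventually_eventually_nhds.2 ev)
  have ev3 : ∀ᶠ y in 𝓝[sphere v 1] z, dist y v = 1 := self_mem_nhdsWithin
  obtain ⟨y, hy, hy2, hy3⟩ := (hf.and_eventually (ev2.and ev3)).exists
  obtain ⟨q, hqV, hq1, hqJ, hqy, hq2, hq3⟩ := h.arc_of_sub (x := v) hy3 (hy.trans hS) hy2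
  have h5 := Set.ncard_sdiff ((hqy.trans hy).trans hS) (Set.toFinite _)
  exact hqV (T q) (hqy.trans hy) (by omega) ⟨hq1, hqJ⟩

/-- an end of exact `P`-arcs of `z` is no centre of exact `P`-arcs with `|P| = 2` -/
theorem no_same (h : Irr U T) {P : Set (Fin 6)} (hP : P.ncard = 2)
    (hcl : v ∈ closure (Ex T z P)) (hcl' : z ∈ closure (Ex T v P)) : False := by
  obtain ⟨r, hr⟩ := closure_nonempty_iff.1 ⟨z, hcl'⟩
  have h1 := h.no_layer (z := v) (q := r) hr.1
  obtain ⟨y, hy1, hy2⟩ := mem_closure_iff_nhds.1 hcl _ h1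
  have h2 := ex_self hy2
  have h3 := ex_self hr
  have h4 : 4 ≤ (T y).ncard := hy1 (by rw [h2, h3])
  rw [h2, hP] at h4
  omega

/-- **a third common colour `c`**: `z` is an end of exact `ac`- or `bc`-arcs of `v` -/
theorem mutual_c (h : Irr U T) (hz : DPt T z a b c d) (hcl : v ∈ closure (Ex T z {a, b}))
    (hv4 : (T v).ncard = 4) (hc : c ∈ T v) :
    z ∈ closure (Ex T v {a, c}) ∨ z ∈ closure (Ex T v {b, c}) := by
  have hvz := dist_of_closure hcl
  have hab := sub_of_closure h hcl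
  have hS : ({a, b, c} : Set (Fin 6)) ⊆ T v := by
    rintro i (rfl | rfl | h1)
    · exact hab (by simp)
    · exact hab (by simp)
    · rw [mem_singleton_iff.1 h1]; exact hc
  have hf : ∃ᶠ y in 𝓝[sphere v 1] z, T y ⊆ {a, b, c} := by
    have h1 := not_eventually.1 (not_run h hz hvz (t := d) (by rw [hz.pal]; simp))
    refine (h1.and_eventually (mem_nhdsWithin_of_mem_nhds (h.nhd z))).mono ?_
    rintro y ⟨h2, h3⟩ i hi
    have h5 := h3 hi
    rw [hz.pal] at h5
    rcases h5 with h5 | h5 | h5 | h5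
    · rw [h5]; simp
    · rw [h5]; simp
    · rw [h5]; simp
    · rw [mem_singleton_iff.1 h5] at hi; exact absurd hi h2
  obtain ⟨P, hPS, hP2, hPz⟩ := pair_acc h hv4 hS hf
  have key : P = {a, b} ∨ P = {a, c} ∨ P = {b, c} := by
    have k : ∀ r s m : Fin 6, P ⊆ {r, s, m} → r ≠ s → m ∉ P → P = {r, s} := by
      intro r s m h1 hrs hm
      refine Set.eq_of_subset_of_ncard_le (fun n hn => ?_) (by rw [Set.ncard_pair hrs, hP2])
        (Set.toFinite _)
      rcases h1 hn with h3 | h3 | h3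
      · exact Or.inl h3
      · exact Or.inr h3
      · exact absurd (h3 ▸ hn) hm
    by_cases hc' : c ∈ P
    · by_cases hb' : b ∈ P
      · by_cases ha' : a ∈ P
        · exfalso
          have h1 : ({a, b, c} : Set (Fin 6)) ⊆ P := by
            rintro m (rfl | rfl | h1)
            · exact ha'
            · exact hb'
            · rw [mem_singleton_iff.1 h1]; exact hc'
          have h3 := Set.ncard_le_ncard h1 (Set.toFinite _)
          have h4 : ({a, b, c} : Set (Fin 6)).ncard = 3 :=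
            Set.ncard_eq_three.2 ⟨a, b, c, hz.ab, hz.ac, hz.bc, rfl⟩
          omega
        · right; right
          refine k b c a (hPS.trans ?_) hz.bc ha'
          intro n; simp only [mem_insert_iff, mem_singleton_iff]; tauto
      · right; left
        refine k a c b (hPS.trans ?_) hz.ac hb'
        intro n; simp only [mem_insert_iff, mem_singleton_iff]; tauto
    · left
      exact k a b c hPS hz.ab hc'
  rcases key with rfl | rfl | rfl
  · exact (no_same h hP2 hcl hPz).elim
  · exact Or.inl hPz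
  · exact Or.inr hPz

/-- a four coloured end without one of the missing colours has a third colour of `z` -/
theorem third (h : Irr U T) (hz : DPt T z a b c d) (hcl : v ∈ closure (Ex T z {a, b}))
    (hv4 : (T v).ncard = 4) (hns : ¬ (T z)ᶜ ⊆ T v) : c ∈ T v ∨ d ∈ T v := by
  by_contra hcon
  push Not at hcon
  obtain ⟨hc, hd⟩ := hcon
  have h4 : (T z).ncard = 4 := by
    rw [hz.pal, Set.ncard_insert_of_notMem (by simp [hz.ab, hz.ac, hz.ad]) (Set.toFinite _),
      Set.ncard_insert_of_notMem (by simp [hz.bc, hz.bd]) (Set.toFinite _), Set.ncard_pair hz.cd]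
  have h2 : ((T z)ᶜ).ncard = 2 := by
    have := Set.ncard_add_ncard_compl (T z)
    rw [Nat.card_eq_fintype_card, Fintype.card_fin] at this
    omega
  have h1 : T v ⊆ {a, b} ∪ (T z)ᶜ := by
    intro i hi
    by_cases hiz : i ∈ T z
    · left
      rw [hz.pal] at hiz
      rcases hiz with h5 | h5 | h5 | h5
      · exact Or.inl h5
      · exact Or.inr h5
      · rw [h5] at hi; exact absurd hi hc
      · rw [mem_singleton_iff.1 h5] at hi; exact absurd hi hd
    · exact Or.inr hiz
  have h5 : ({a, b} ∪ (T z)ᶜ : Set (Fin 6)).ncard ≤ 4 := by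
    have := Set.ncard_union_le ({a, b} : Set (Fin 6)) (T z)ᶜ
    rw [Set.ncard_pair hz.ab, h2] at this
    exact this
  have h6 := Set.eq_of_subset_of_ncard_le h1 (by omega) (Set.toFinite _)
  exact hns (by rw [h6]; exact subset_union_right)

/-- **`K3` is mutual.** -/
theorem k3_mutual (h : Irr U T) (hz : DPt T z a b c d) (hcl : v ∈ closure (Ex T z {a, b}))
    (hv4 : (T v).ncard = 4) (hns : ¬ (T z)ᶜ ⊆ T v) :
    ∃ a' b' c' d', DPt T z a' b' c' d' ∧ ({a', b'} : Set (Fin 6)) = {a, b} ∧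
      v ∈ closure (Ex T z {a', b'}) ∧ z ∈ closure (Ex T v {a', c'}) := by
  have main : ∀ {c d : Fin 6}, DPt T z a b c d → c ∈ T v →
      ∃ a' b' c' d', DPt T z a' b' c' d' ∧ ({a', b'} : Set (Fin 6)) = {a, b} ∧
        v ∈ closure (Ex T z {a', b'}) ∧ z ∈ closure (Ex T v {a', c'}) := by
    intro c d hz hc
    rcases mutual_c h hz hcl hv4 hc with h1 | h1
    · exact ⟨a, b, c, d, hz, rfl, hcl, h1⟩
    · exact ⟨b, a, c, d, hz.swap12, Set.pair_comm _ _, by rw [Set.pair_comm]; exact hcl, h1⟩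
  rcases third h hz hcl hv4 hns with hc | hd
  · exact main hz hc
  · exact main hz.swap34 hd

/-- **the same palette**: two different exact pairs of `v` accumulate at `z` -/
theorem two_same (h : Irr U T) (hz : DPt T z a b c d) (hcl : v ∈ closure (Ex T z {a, b}))
    (hT : T v = T z) :
    (z ∈ closure (Ex T v {a, c}) ∨ z ∈ closure (Ex T v {b, c})) ∧
      (z ∈ closure (Ex T v {a, d}) ∨ z ∈ closure (Ex T v {b, d})) := by
  have h4 : (T v).ncard = 4 := by
    rw [hT, hz.pal, Set.ncard_insert_of_notMem (by simp [hz.ab, hz.ac, hz.ad]) (Set.toFinite _),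
      Set.ncard_insert_of_notMem (by simp [hz.bc, hz.bd]) (Set.toFinite _), Set.ncard_pair hz.cd]
  exact ⟨mutual_c h hz hcl h4 (by rw [hT, hz.pal]; simp),
    mutual_c h hz.swap34 hcl h4 (by rw [hT, hz.pal]; simp)⟩

/-- a point near `z` in an exact arc gives a pair of `MM` -/
theorem mem_MM (h : Irr U T) {P : Set (Fin 6)} (hP : P.ncard = 2)
    (hz : z ∈ closure (Ex T v P)) (hPv : P ⊆ T v) : P ∈ MM T v := by
  obtain ⟨r, hr⟩ := closure_nonempty_iff.1 ⟨z, hz⟩
  exact ⟨hPv, hP, r, hr.1, hr.2⟩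

/-- **no harmless end with the palette of the centre** -/
theorem no_hm_same (h : Irr U T) (hz : DPt T z a b c d) (hcl : v ∈ closure (Ex T z {a, b}))
    (hT : T v = T z) : ∃ P ∈ MM T v, ∃ Q ∈ MM T v, P ≠ Q := by
  have mem : ∀ {i}, i = a ∨ i = b ∨ i = c ∨ i = d → i ∈ T v := by
    intro i hi
    rw [hT, hz.pal]
    simpa using hi
  obtain ⟨h1, h2⟩ := two_same h hz hcl hT
  have ex1 : ∃ P ∈ MM T v, c ∈ P ∧ d ∉ P := by
    rcases h1 with h1 | h1
    · refine ⟨_, mem_MM h (Set.ncard_pair hz.ac) h1 ?_, by simp, by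
        simp [hz.ad.symm, hz.cd.symm]⟩
      rintro i (rfl | h5)
      · exact mem (by simp)
      · rw [mem_singleton_iff.1 h5]; exact mem (by simp)
    · refine ⟨_, mem_MM h (Set.ncard_pair hz.bc) h1 ?_, by simp, by
        simp [hz.bd.symm, hz.cd.symm]⟩
      rintro i (rfl | h5)
      · exact mem (by simp)
      · rw [mem_singleton_iff.1 h5]; exact mem (by simp)
  have ex2 : ∃ P ∈ MM T v, d ∈ P := by
    rcases h2 with h2 | h2
    · refine ⟨_, mem_MM h (Set.ncard_pair hz.ad) h2 ?_, by simp⟩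
      rintro i (rfl | h5)
      · exact mem (by simp)
      · rw [mem_singleton_iff.1 h5]; exact mem (by simp)
    · refine ⟨_, mem_MM h (Set.ncard_pair hz.bd) h2 ?_, by simp⟩
      rintro i (rfl | h5)
      · exact mem (by simp)
      · rw [mem_singleton_iff.1 h5]; exact mem (by simp)
  obtain ⟨P, hP, -, hd⟩ := ex1
  obtain ⟨Q, hQ, hd'⟩ := ex2
  exact ⟨P, hP, Q, hQ, fun h5 => hd (h5 ▸ hd')⟩

end Vale.Agent.P032.H821
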