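import Vale.Agent.P032.H821.Mut

/-!
# P032: the palettes of the two points of a mutual end

`k3_pal`: as `k3_mutual`, with the palette `{a, b, c, x}` of the end.
-/

open Set Filter Topology Metric

noncomputable section

namespace Vale.Agent.P032.H821

open Vale.Agent.P032.Six Vale.Agent.P032.S5.H767

variable {U : Fin 6 → Set ℂ} {T : ℂ → Set (Fin 6)} {z v : ℂ} {a b c d t : Fin 6}

/-- a set of four colours which contains three given ones -/
theorem exists_fourth {P : Set (Fin 6)} (h4 : P.ncard = 4) (ha : a ∈ P) (hb : b ∈ P) (hc : c ∈ P)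
    (hab : a ≠ b) (hac : a ≠ c) (hbc : b ≠ c) :
    ∃ x, [a, b, c, x].Nodup ∧ P = {a, b, c, x} := by
  have h3 : ({a, b, c} : Set (Fin 6)).ncard = 3 := by
    rw [Set.ncard_insert_of_notMem (by simp [hab, hac]) (Set.toFinite _), Set.ncard_pair hbc]
  have hsub : ({a, b, c} : Set (Fin 6)) ⊆ P := by
    rintro i (rfl | rfl | h)
    · exact ha
    · exact hb
    · rw [mem_singleton_iff.1 h]; exact hc
  obtain ⟨x, hx, hx'⟩ := Set.exists_mem_notMem_of_ncard_lt_ncard
    (show ({a, b, c} : Set (Fin 6)).ncard < P.ncard by omega) (Set.toFinite _)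
  simp only [mem_insert_iff, mem_singleton_iff, not_or] at hx'
  refine ⟨x, ?_, ?_⟩
  · simp only [List.nodup_cons, List.mem_cons, List.not_mem_nil, or_false, not_or,
      List.nodup_nil, and_true, not_false_eq_true]
    exact ⟨⟨hab, hac, fun h => hx'.1 h.symm⟩, ⟨hbc, fun h => hx'.2.1 h.symm⟩,
      fun h => hx'.2.2 h.symm⟩
  · have h5 : ({a, b, c, x} : Set (Fin 6)).ncard = 4 := by
      rw [Set.ncard_insert_of_notMem (by
        simp only [mem_insert_iff, mem_singleton_iff, not_or]
        exact ⟨hab, hac, fun h => hx'.1 h.symm⟩) (Set.toFinite _),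
        Set.ncard_insert_of_notMem (by
          simp only [mem_insert_iff, mem_singleton_iff, not_or]
          exact ⟨hbc, fun h => hx'.2.1 h.symm⟩) (Set.toFinite _),
        Set.ncard_pair fun h => hx'.2.2 h.symm]
    refine (Set.eq_of_subset_of_ncard_le ?_ (by omega) (Set.toFinite _)).symm
    rintro i (rfl | rfl | rfl | h)
    · exact ha
    · exact hb
    · exact hc
    · rw [mem_singleton_iff.1 h]; exact hx

/-- **`K3` is mutual, with the palette of the end.** -/
theorem k3_pal (h : Irr U T) (hz : DPt T z a b c d) (hcl : v ∈ closure (Ex T z {a, b}))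
    (hv4 : (T v).ncard = 4) (hns : ¬ (T z)ᶜ ⊆ T v) :
    ∃ a' b' c' d' x, DPt T z a' b' c' d' ∧ [a', b', c', x].Nodup ∧ T v = {a', b', c', x} ∧
      v ∈ closure (Ex T z {a', b'}) ∧ z ∈ closure (Ex T v {a', c'}) := by
  have hab := sub_of_closure h hcl
  have ha : a ∈ T v := hab (by simp)
  have hb : b ∈ T v := hab (by simp)
  have main : ∀ {c d : Fin 6}, DPt T z a b c d → c ∈ T v →
      ∃ a' b' c' d' x, DPt T z a' b' c' d' ∧ [a', b', c', x].Nodup ∧ T v = {a', b', c', x} ∧
        v ∈ closure (Ex T z {a', b'}) ∧ z ∈ closure (Ex T v {a', c'}) := by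
    intro c d hz hc
    rcases mutual_c h hz hcl hv4 hc with h1 | h1
    · obtain ⟨x, hx, hP⟩ := exists_fourth hv4 ha hb hc hz.ab hz.ac hz.bc
      exact ⟨a, b, c, d, x, hz, hx, hP, hcl, h1⟩
    · obtain ⟨x, hx, hP⟩ := exists_fourth hv4 hb ha hc hz.ab.symm hz.bc hz.ac
      exact ⟨b, a, c, d, x, hz.swap12, hx, hP, by rw [Set.pair_comm]; exact hcl, h1⟩
  rcases third h hz hcl hv4 hns with hc | hd
  · exact main hz hc
  · exact main hz.swap34 hd

end Vale.Agent.P032.H821
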