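import Vale.Agent.P032.H535.Biex
import Vale.Agent.P032.H849.Soft
import Vale.Agent.P032.H642.Top
import Vale.Agent.P032.H821.MutP

/-!
# P032: special ends of two-pair points, statement in the plane

`ArcP U z s`: the points inside arcs of the unit circle about `z` at which `s` is a minimal
sufficient set.  `Spec U O`: the four cases.  `plane_special`: from the theorem on irredundant
covers to maximal families of open sets.
-/

open Set Filter Topology Metric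

noncomputable section

namespace Vale.Agent.P032.H821

open Vale.Agent.P032.Six Vale.Agent.P032.S5.H926 Vale.Agent.P032.S5.H843 Vale.Agent.P032.S5.H138
  Vale.Agent.P032.S5.H306 Vale.Agent.P032.R2.H306

/-- the points inside arcs of the unit circle about `z` at which `s` is a minimal sufficient set -/
def ArcP {E : Type*} [PseudoMetricSpace E] (U : Fin 6 → Set E) (z : E) (s : Set (Fin 6)) : Set E :=
  {p | dist p z = 1 ∧ ∃ r > 0, ∀ y, dist y z = 1 → dist y p < r → H535.Ex U y s}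

/-- the four cases -/
def Spec {E : Type*} [PseudoMetricSpace E] (U : Fin 6 → Set E) (O : ℕ → Set E) : Prop :=
  (∃ z, H535.Ex U z univ ∧ ∀ k, 3 ≤ k → k < 6 → z ∈ O k) ∨
  (∃ z z' P P', dist z z' = 1 ∧ P.ncard = 5 ∧ 4 ≤ P'.ncard ∧ H535.Ex U z P ∧ H535.Ex U z' P' ∧
    (∀ k, 3 ≤ k → k < 5 → z ∈ O k) ∧ ∀ k, 3 ≤ k → k < P'.ncard → z' ∈ O k) ∨
  (∃ z v a b c d x, [a, b, c, d].Nodup ∧ [a, b, c, x].Nodup ∧ z ∈ O 3 ∧ v ∈ O 3 ∧
    H535.Ex U z {a, b, c, d} ∧ H535.Ex U v {a, b, c, x} ∧ v ∈ closure (ArcP U z {a, b}) ∧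
    z ∈ closure (ArcP U v {a, c}) ∧ (ArcP U z {c, d}).Nonempty) ∨
  ∃ z y y' a b c d e f, [a, b, c, d, e, f].Nodup ∧ z ∈ O 3 ∧ y ∈ O 3 ∧
    H535.Ex U z {a, b, c, d} ∧ (ArcP U z {a, b}).Nonempty ∧ (ArcP U z {c, d}).Nonempty ∧
    dist y z = 1 ∧ dist y' z = 1 ∧ dist y y' = 1 ∧
    (∃ P, P.ncard = 4 ∧ e ∈ P ∧ f ∈ P ∧ H535.Ex U y P) ∧ y' ∈ closure (U e) ∧ y' ∈ closure (U f)

section frame

variable {U : Fin 6 → Set ℂ} {T : ℂ → Set (Fin 6)} {z v y : ℂ} {a b c d : Fin 6}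

/-- two colours of the centre at a point of its circle: both are needed -/
theorem ex_pair (h : Irr U T) (hd : Dense (⋃ i, U i)) (ha : a ∈ T z) (hb : b ∈ T z)
    (hyz : dist y z = 1) (hy : T y = {a, b}) : H535.Ex U y {a, b} := by
  refine ⟨by rw [← hy]; exact Irr_suff h y, fun s' hs' => ?_⟩
  by_contra hcon
  have h2 := suf_of_notMem hd hcon
  have key : ∀ t, t ∈ T z → (∀ i ∈ s', i = t) → False := by
    intro t ht hs
    refine H535.not_single h hyz ht (h2.mono fun w hw => ?_)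
    obtain ⟨i, hi, hw⟩ := hw
    rw [hs i hi] at hw
    exact hw.elim (fun h => subset_closure h) fun h => h.2
  by_cases h4 : b ∈ s'
  · by_cases h5 : a ∈ s'
    · refine hs'.2 ?_
      rintro i (rfl | h6)
      · exact h5
      · rw [mem_singleton_iff.1 h6]; exact h4
    · refine key b hb fun i hi => ?_
      rcases hs'.1 hi with rfl | h6
      · exact absurd hi h5
      · exact h6
  · refine key a ha fun i hi => ?_
    rcases hs'.1 hi with h6 | h6
    · exact h6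
    · rw [mem_singleton_iff.1 h6] at hi; exact absurd hi h4

/-- exact arcs are arcs with a constant minimal sufficient set -/
theorem ex_arc (h : Irr U T) (hd : Dense (⋃ i, U i)) (ha : a ∈ T z) (hb : b ∈ T z) :
    S5.H767.Ex T z {a, b} ⊆ ArcP U z {a, b} := by
  rintro p ⟨hpz, hp⟩
  rw [eventually_nhdsWithin_iff, Metric.eventually_nhds_iff] at hp
  obtain ⟨r, hr, hball⟩ := hp
  exact ⟨hpz, r, hr, fun y hyz hyp => ex_pair h hd ha hb hyz (hball hyp hyz)⟩

theorem arcP_nonempty (h : Irr U T) (hd : Dense (⋃ i, U i)) (ha : a ∈ T z) (hb : b ∈ T z)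
    (hp : ∃ p, Arc T z p {a, b}) : (ArcP U z {a, b}).Nonempty := by
  obtain ⟨p, hp⟩ := hp
  exact ⟨p, ex_arc h hd ha hb ⟨hp.1, hp.2⟩⟩

theorem nodup_dpt (hz : DPt T z a b c d) : [a, b, c, d].Nodup := by
  simp only [List.nodup_cons, List.mem_cons, List.not_mem_nil, or_false, not_or,
    List.nodup_nil, and_true, not_false_eq_true]
  exact ⟨⟨hz.ab, hz.ac, hz.ad⟩, ⟨hz.bc, hz.bd⟩, hz.cd⟩

theorem card_dpt' (hz : DPt T z a b c d) : (T z).ncard = 4 := by
  rw [hz.pal, Set.ncard_insert_of_notMem (by simp [hz.ab, hz.ac, hz.ad]) (Set.toFinite _),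
    Set.ncard_insert_of_notMem (by simp [hz.bc, hz.bd]) (Set.toFinite _), Set.ncard_pair hz.cd]

/-- **Statement in the complex plane.** -/
theorem plane_special
    (F : ∀ T : ℂ → Set (Fin 6), Irr U T → Mn U T → Ln U T → H299.N5 T → H942.K3 T ∨ H942.C1 T)
    (hU : ∀ i, Maximal (fun W : Set ℂ => IsOpen W ∧ ∀ x ∈ W, ∀ y ∈ W, dist x y ≠ 1) (U i))
    (hd : Dense (⋃ i, U i)) {O : ℕ → Set ℂ} (hO : ∀ n, IsOpen (O n))
    (hX : ∀ n, 3 ≤ n → XU U n ⊆ O n) : Spec U O := by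
  obtain ⟨T0, hT0, hm0, hV0⟩ := H535.exists_T_open hU hd hO hX
  obtain ⟨T, h, hm, -, hl, h4, -⟩ := hT0.exists_soft6 hm0
  have hV : ∀ v n, 3 ≤ n → n < (T v).ncard → v ∈ O n := fun v n hn3 hn => by
    have h5 := h4 v (by omega)
    rw [h5] at hn
    exact hV0 v n hn3 hn
  have hE : ∀ {z}, 4 ≤ (T z).ncard → H535.Ex U z (T z) := fun hz => H535.Ex_of_T h hm hd hz
  by_contra hcon
  simp only [Spec, not_or] at hcon
  obtain ⟨n0, n1, n2, n3⟩ := hcon
  have hle : ∀ x, (T x).ncard ≤ 5 := by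
    intro x
    by_contra h5
    have h6 : (T x).ncard ≤ (univ : Set (Fin 6)).ncard :=
      Set.ncard_le_ncard (subset_univ _) (Set.toFinite _)
    rw [Set.ncard_univ, Nat.card_eq_fintype_card, Fintype.card_fin] at h6
    have h7 : T x = univ := by
      refine Set.eq_of_subset_of_ncard_le (subset_univ _) ?_ (Set.toFinite _)
      rw [Set.ncard_univ, Nat.card_eq_fintype_card, Fintype.card_fin]
      omega
    exact n0 ⟨x, by rw [← h7]; exact hE (by omega), fun k hk hk6 => hV x k hk (by omega)⟩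
  have hN : H299.N5 T := by
    refine ⟨hle, fun x y hx hy => ?_⟩
    by_contra h5
    exact n1 ⟨x, y, T x, T y, by rw [dist_comm]; exact hy, hx, by omega, hE (by omega),
      hE (by omega), fun k hk hk5 => hV x k hk (by omega), fun k hk hk5 => hV y k hk hk5⟩
  rcases F T h hm hl hN with ⟨z, a, b, c, d, v, hz, hcl, hv4, hns⟩ |
    ⟨z, a, b, c, d, y, y', hz, h1, h2, h3, h5, h6, h7⟩
  · obtain ⟨a', b', c', d', x, hz', hx, hP, h8, h9⟩ := k3_pal h hz hcl hv4 hns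
    have hz4 := card_dpt' hz'
    have ma : a' ∈ T z := by rw [hz'.pal]; simp
    have mb : b' ∈ T z := by rw [hz'.pal]; simp
    have mc : c' ∈ T z := by rw [hz'.pal]; simp
    have md : d' ∈ T z := by rw [hz'.pal]; simp
    exact n2 ⟨z, v, a', b', c', d', x, nodup_dpt hz', hx, hV z 3 le_rfl (by omega),
      hV v 3 le_rfl (by omega), by rw [← hz'.pal]; exact hE (by omega),
      by rw [← hP]; exact hE (by omega), closure_mono (ex_arc h hd ma mb) h8,
      closure_mono (ex_arc h hd (by rw [hP]; simp) (by rw [hP]; simp)) h9,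
      arcP_nonempty h hd mc md hz'.arc2⟩
  · have hz4 := card_dpt' hz
    have ma : a ∈ T z := by rw [hz.pal]; simp
    have mb : b ∈ T z := by rw [hz.pal]; simp
    have mc : c ∈ T z := by rw [hz.pal]; simp
    have md : d ∈ T z := by rw [hz.pal]; simp
    obtain ⟨e, f, nd⟩ := hz.exists_nodup
    have nd' := nd
    simp only [List.nodup_cons, List.mem_cons, List.not_mem_nil, or_false, not_or,
      List.nodup_nil, and_true, not_false_eq_true] at nd'
    obtain ⟨⟨-, -, -, hae, haf⟩, ⟨-, -, hbe, hbf⟩, ⟨-, hce, hcf⟩, ⟨hde, hdf⟩, -⟩ := nd'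
    have he : e ∈ (T z)ᶜ := by
      rw [hz.pal]
      simp only [mem_compl_iff, mem_insert_iff, mem_singleton_iff, not_or]
      exact ⟨fun h => hae h.symm, fun h => hbe h.symm, fun h => hce h.symm, fun h => hde h.symm⟩
    have hf : f ∈ (T z)ᶜ := by
      rw [hz.pal]
      simp only [mem_compl_iff, mem_insert_iff, mem_singleton_iff, not_or]
      exact ⟨fun h => haf h.symm, fun h => hbf h.symm, fun h => hcf h.symm, fun h => hdf h.symm⟩
    exact n3 ⟨z, y, y', a, b, c, d, e, f, nd, hV z 3 le_rfl (by omega),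
      hV y 3 le_rfl (by omega), by rw [← hz.pal]; exact hE (by omega),
      arcP_nonempty h hd ma mb hz.arc1, arcP_nonempty h hd mc md hz.arc2, h1, h2, h3,
      ⟨T y, h7, h5 he, h5 hf, hE (by omega)⟩, h.sub y' (h6 he), h.sub y' (h6 hf)⟩

end frame

/-! ### transfer -/

theorem arcP_phi {U : Fin 6 → Set (EuclideanSpace ℝ (Fin 2))} {z x : ℂ} {s : Set (Fin 6)}
    (h : x ∈ ArcP (fun i => φ ⁻¹' U i) z s) : φ x ∈ ArcP U (φ z) s := by
  obtain ⟨h1, r, hr, h2⟩ := h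
  have hd : ∀ y p : ℂ, dist (φ y) (φ p) = dist y p := fun y p => φ.dist_map y p
  refine ⟨by rw [hd]; exact h1, r, hr, fun y hy hyp => ?_⟩
  rw [← φ.apply_symm_apply y, hd] at hy hyp
  have := H535.hEx (h2 _ hy hyp)
  rwa [φ.apply_symm_apply] at this

theorem arcP_closure {U : Fin 6 → Set (EuclideanSpace ℝ (Fin 2))} {z x : ℂ} {s : Set (Fin 6)}
    (h : x ∈ closure (ArcP (fun i => φ ⁻¹' U i) z s)) : φ x ∈ closure (ArcP U (φ z) s) := by
  have h1 : φ x ∈ closure (φ '' ArcP (fun i => φ ⁻¹' U i) z s) :=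
    image_closure_subset_closure_image φ.continuous ⟨x, h, rfl⟩
  refine closure_mono ?_ h1
  rintro _ ⟨p, hp, rfl⟩
  exact arcP_phi hp

/-- **Statement in the plane.** -/
theorem special {U : Fin 6 → Set (EuclideanSpace ℝ (Fin 2))}
    (F : ∀ (U : Fin 6 → Set ℂ) (T : ℂ → Set (Fin 6)), Irr U T → Mn U T → Ln U T → H299.N5 T →
      H942.K3 T ∨ H942.C1 T) (hd : Dense (⋃ i, U i))
    (hU : ∀ i, Maximal (fun W : Set (EuclideanSpace ℝ (Fin 2)) =>
      IsOpen W ∧ ∀ x ∈ W, ∀ y ∈ W, dist x y ≠ 1) (U i))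
    {O : ℕ → Set (EuclideanSpace ℝ (Fin 2))} (hO : ∀ n, IsOpen (O n))
    (hX : ∀ n, 3 ≤ n → XU U n ⊆ O n) : Spec U O := by
  have hUc : ∀ i, Maximal (fun W : Set ℂ => IsOpen W ∧ ∀ x ∈ W, ∀ y ∈ W, dist x y ≠ 1)
      (φ ⁻¹' U i) := fun i => maximal_preimage (hU i) φ
  have hdc : Dense (⋃ i, φ ⁻¹' U i) := by
    rw [← preimage_iUnion]
    exact hd.preimage φ.toHomeomorph.isOpenMap
  have hd' : ∀ y p : ℂ, dist (φ y) (φ p) = dist y p := fun y p => φ.dist_map y p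
  have hcl : ∀ S : Set (EuclideanSpace ℝ (Fin 2)), closure (φ ⁻¹' S) = φ ⁻¹' closure S :=
    fun S => (φ.toHomeomorph.preimage_closure S).symm
  rcases plane_special (U := fun i => φ ⁻¹' U i) (F _) hUc hdc (O := fun n => φ ⁻¹' O n)
    (fun n => (hO n).preimage φ.continuous) (fun n hn x hx => hX n hn (hXU n x hx)) with
    ⟨z, h1, h2⟩ | ⟨z, z', P, P', h1, h2, h3, h4, h5, h6, h7⟩ |
    ⟨z, v, a, b, c, d, x, h1, h2, h3, h4, h5, h6, h7, h8, p, hp⟩ |
    ⟨z, y, y', a, b, c, d, e, f, h1, h2, h3, h4, ⟨p, hp⟩, ⟨q, hq⟩, h5, h6, h7,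
      ⟨P, h8, h9, h10, h11⟩, h12, h13⟩
  · exact Or.inl ⟨φ z, H535.hEx h1, h2⟩
  · exact Or.inr (Or.inl ⟨φ z, φ z', P, P', by rw [hd']; exact h1, h2, h3, H535.hEx h4,
      H535.hEx h5, h6, h7⟩)
  · exact Or.inr (Or.inr (Or.inl ⟨φ z, φ v, a, b, c, d, x, h1, h2, h3, h4, H535.hEx h5,
      H535.hEx h6, arcP_closure h7, arcP_closure h8, φ p, arcP_phi hp⟩))
  · rw [hcl] at h12 h13
    exact Or.inr (Or.inr (Or.inr ⟨φ z, φ y, φ y', a, b, c, d, e, f, h1, h2, h3, H535.hEx h4,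
      ⟨φ p, arcP_phi hp⟩, ⟨φ q, arcP_phi hq⟩, by rw [hd']; exact h5, by rw [hd']; exact h6,
      by rw [hd']; exact h7, ⟨P, h8, h9, h10, H535.hEx h11⟩, h12, h13⟩))

end Vale.Agent.P032.H821
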